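import Vale.Agent.P092EG.Lb

/-!
P092 (helper32), block REL, piece (C): the end game.
-/

set_option linter.all false

open scoped InnerProductSpace ENNReal NNReal CompactlySupported Pointwise
open MeasureTheory Filter Topology ContinuousLinearMap Set

namespace Vale.Agent.P092EG

open Vale.Agent.P092CP Vale.Agent.P092RD Vale.Agent.P092RD.POM Vale.Agent.P092SB
open Vale.Agent.P092TH Vale.Agent.P092RK
open Vale.Agent.P092.RC (Cm Moore)

variable {G G' K : Type} [Group G] [TopologicalSpace G] [IsTopologicalGroup G]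
  [LocallyCompactSpace G] [SecondCountableTopology G] [T2Space G] [MeasurableSpace G] [BorelSpace G]
  [Group G'] [TopologicalSpace G'] [IsTopologicalGroup G'] [LocallyCompactSpace G']
  [SecondCountableTopology G'] [T2Space G'] [MeasurableSpace G'] [BorelSpace G']
  [NormedAddCommGroup K] [InnerProductSpace ℂ K] [CompleteSpace K] {μ : Measure G}
  [μ.IsHaarMeasure] {μ' : Measure G'} [μ'.IsHaarMeasure] {W : Set (K →L[ℂ] K)}
  {Y Y' Z₀ : Type} [TopologicalSpace Y] [MeasurableSpace Y] [BorelSpace Y] [CompactSpace Y]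
  [T2Space Y] [SecondCountableTopology Y] [Nonempty Y] [MulAction G' Y] [TopologicalSpace Y']
  [MeasurableSpace Y'] [BorelSpace Y'] [CompactSpace Y'] [T2Space Y'] [SecondCountableTopology Y']
  [Nonempty Y'] [MulAction G' Y'] [TopologicalSpace Z₀] [MeasurableSpace Z₀] [BorelSpace Z₀]
  [LocallyCompactSpace Z₀] [T2Space Z₀] [SecondCountableTopology Z₀] [MulAction G' Z₀]
  [ContinuousSMul G' Z₀] {C : Cpl μ μ' W} {dir : Z₀ → Y} {E : POM Y K} {E' : POM Y' K}
  {Ψ : POM Z₀ K} {Op : Set (Y × Y')} {M : ℝ≥0∞}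

theorem loc_comm (h : Loc C dir E Ψ) (md : Measurable dir) {φ : Y → ℂ} {F : Z₀ → ℂ} (hφ : Bd φ)
    (hF : Bd F) : Ψ.f F * E.f φ = E.f φ * Ψ.f F := by
  have := congrArg star (h.mod _ _ (bd_star hφ) (bd_star hF))
  rw [star_mul, E.star_f (bd_star hφ), Ψ.star_f (bd_star hF),
    Ψ.star_f (bd_mul (bd_comp (bd_star hφ) md) (bd_star hF)), star_star, star_star] at this
  rw [← this, ← h.mod φ F hφ hF]
  congr 1
  ext z
  simp

theorem loc_cj (h : Loc C dir E Ψ) (md : Measurable dir) (hE : E.IsP) {κ : G' → Y → ℂ}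
    (bκ : ∀ k, Bd (κ k)) (nκ : ∀ k x, ‖κ k x‖ = 1) {u v : K →L[ℂ] K} (hu : u ∈ Xm C ∅ E κ)
    (e : star u = v) (h1 : u * v = 1) : Loc C dir E (Ψ.cj u v e h1) := by
  have hv := e ▸ Xm.star bκ hu
  refine ⟨fun F hF => cm_mul (cm_mul hu.1 (h.cm F hF)) hv.1, fun k F hF => ?_, fun φ F hφ hF => ?_⟩
  · have b : Bd fun ζ => F (k⁻¹ • ζ) := bd_comp hF (continuous_const_smul _).measurable
    have h2 := (hE.star_mul_self (bκ k) (nκ k)).2
    rw [E.star_f (bκ k)] at h2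
    rw [cj_f, cj_f, C.t.conj_mul, C.t.conj_mul, hu.2.2.2, hv.2.2.2, h.cov k F hF,
      ← hu.2.1 _ (bκ k), mul_assoc u, ← loc_comm h md (bκ k) b, Pi.star_apply, mul_assoc u,
      mul_assoc, ← mul_assoc (E.f _), h2, one_mul, mul_assoc]
  · rw [cj_f, cj_f, h.mod φ F hφ hF, ← mul_assoc u, hu.2.1 φ hφ]
    simp only [mul_assoc]

/-- a localiser with a window on the opposite pairs -/
structure Ix (C : Cpl μ μ' W) (dir : Z₀ → Y) (E : POM Y K) (Op : Set (Y × Y')) where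
  /-- the localiser -/
  Ψ : POM Z₀ K
  /-- its set -/
  L : Set Z₀
  /-- the first factor -/
  Q : Set Y
  /-- the second factor -/
  Q' : Set Y'
  /-- the constant of properness -/
  c : ℝ≥0∞
  /-- the bump -/
  f : C_c(Y', ℝ)
  loc : Loc C dir E Ψ
  mL : MeasurableSet L
  cQ : IsCompact Q
  cQ' : IsCompact Q'
  sub : Q ×ˢ Q' ⊆ Op
  fin : c ≠ ∞
  pr : PR μ' dir L Q Q' c
  nf : ∀ y, |f y| ≤ 1
  zf : ∀ y, y ∉ Q' → f y = 0

namespace Ix

variable (i : Ix C dir E Op)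

/-- the localising operator -/
noncomputable def a : K →L[ℂ] K := i.Ψ.P i.L

/-- the window -/
noncomputable def X (E' : POM Y' K) : K →L[ℂ] K := E.P i.Q * E'.f fun y => (i.f y : ℂ)

theorem cm_a : Cm W i.a := i.loc.cm _ (bd_ind1 i.mL)

theorem bQ : Bd (i.Q.indicator (1 : Y → ℂ)) := bd_ind1 i.cQ.measurableSet

theorem cm_X (pE : Pvm C E) (pE' : Pvm C E') : Cm W (i.X E') :=
  cm_mul (pE.cm _ i.bQ) (pE'.cm _ (bd_cc i.f))

theorem hs {e : Y × Y' → ℂ} {u u' : K →L[ℂ] K} (rs : RS C dir E E' Op M e u u') :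
    C.t.Tr (i.a * i.X E') ≤ M * i.c := by
  obtain ⟨χ, hχ⟩ := rs 1 one_pos
  have := hχ i.Ψ i.L i.Q i.Q' i.c 0 i.f 1 (fun _ => i.Q.indicator 1) (fun _ => i.f) i.loc i.mL i.pr
    ⟨i.cQ.measurableSet, i.cQ'.measurableSet, i.sub, measurable_const, fun _ => i.bQ, by simp, i.nf,
      fun _ _ => rfl, i.zf, fun _ x hx => indicator_of_notMem hx _, fun _ => i.zf, fun x y => by
        have := mul_le_one₀ (norm_ind_le i.Q x) (abs_nonneg _) (i.nf y)
        simpa using this⟩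
  simpa [E.zero, a, X, P] using this

theorem fix (md : Measurable dir) (hE : E.IsP) (hE' : E'.IsP) {φ : Y → ℂ} {ψ : Y' → ℂ} (hφ : Bd φ)
    (hψ : Bd ψ) (r : K →L[ℂ] K) : E.f φ * (i.a * i.X E') * (E'.f ψ * r)
      = i.a * (E.f (i.Q.indicator φ) * E'.f ((fun y => (i.f y : ℂ)) * ψ)) * r := by
  rw [← hE.f_mul_P i.cQ.measurableSet hφ, hE'.mul _ _ (bd_cc i.f) hψ, ← mul_assoc (E.f φ), a, P,
    ← loc_comm i.loc md hφ (bd_ind1 i.mL), X]
  simp only [mul_assoc]

end Ix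

theorem bd3 {φ : Y → ℂ} {ψ : Y' → ℂ} {g : ℝ → ℂ} (hφ : Bd φ) (hψ : Bd ψ) (hg : Bd g) :
    Bd fun p : Y × Y' × ℝ => φ p.1 * (ψ p.2.1 * g p.2.2) := bd_mul (bd_comp hφ measurable_fst)
  (bd_mul (bd_comp hψ measurable_snd.fst) (bd_comp hg measurable_snd.snd))

/-- the relation without an error -/
theorem key {δ : Y × Y' → ℝ} {H' : POM ℝ K} {J : POM (Y × Y' × ℝ) C.t.LB} (md : Measurable dir)
    (hO : IsOpen Op) (mδ : Measurable δ) (cδ : ContinuousOn δ Op) (pE : Pvm C E) (pE' : Pvm C E')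
    (hH : H'.IsP) (cH : ∀ g, Bd g → Cm W (H'.f g)) (hJ : Jt C E E' H' J) (hM : M ≠ ∞) {t : ℝ}
    {u : K →L[ℂ] K} (rs : RS C dir E E' Op M (ex t δ) u (H'.f (ex t id)))
    (mem : ∀ i : Ix C dir E Op, i.a * star u * i.X E' ∈ C.t.HS) : ∃ κ : ℂ, ∀ i : Ix C dir E Op,
      J.f (ex t fun p => δ (p.1, p.2.1) + p.2.2) (C.t.vB (i.a * i.X E'))
        = κ • C.t.vB (i.a * star u * i.X E') := by
  refine exists_kap (C := fun i => ‖C.t.vB (i.a * i.X E')‖ + √((M * i.c).toReal)) fun ε hε => ?_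
  obtain ⟨χ, hχ⟩ := rs ε hε
  refine ⟨χ, fun i => ?_⟩
  have m0 : i.a * i.X E' ∈ C.t.HS := ⟨cm_mul i.cm_a (i.cm_X pE pE'),
    ne_top_of_le_ne_top (ENNReal.mul_ne_top hM i.fin) (i.hs rs)⟩
  obtain ⟨n, z, ρ, hρ⟩ := exists_apx (e := ex t δ) (by unfold ex; fun_prop) hO i.cQ i.cQ' i.sub hε
  have bt := bd_ex t (measurable_id (α := ℝ))
  have bφ : ∀ j, Bd fun x => ex t δ (x, z j) := fun j =>
    bd_comp (r := fun x => (x, z j)) (bd_ex t mδ) (measurable_id.prodMk measurable_const)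
  have bρ : ∀ j, Bd fun y => (ρ j y : ℂ) := fun j => bd_cc ⟨ρ j, .of_compactSpace _⟩
  let p : Fin n → C_c(Y', ℝ) := fun j =>
    ⟨⟨fun y => i.f y * ρ j y, by fun_prop⟩, .of_compactSpace _⟩
  have hp : ∀ j y, p j y = i.f y * ρ j y := fun _ _ => rfl
  have h1 := hχ i.Ψ i.L i.Q i.Q' i.c (i.Q.indicator 1) i.f n
    (fun j => i.Q.indicator fun x => ex t δ (x, z j)) p i.loc i.mL i.pr
    ⟨i.cQ.measurableSet, i.cQ'.measurableSet, i.sub, i.bQ.meas,
      fun j => bd_ind i.cQ.measurableSet (bφ j), norm_ind_le _, i.nf,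
      fun x hx => indicator_of_notMem hx _, i.zf, fun _ x hx => indicator_of_notMem hx _,
      fun j y hy => by rw [hp, i.zf y hy, zero_mul], fun x y => by
        by_cases hx : x ∈ i.Q
        · by_cases hy : y ∈ i.Q'
          · refine le_trans (le_of_eq ?_) ((mul_le_of_le_one_left (norm_nonneg _)
              (show ‖(i.f y : ℂ)‖ ≤ 1 by simpa using i.nf y)).trans (hρ x hx y hy))
            rw [← norm_mul, mul_sub, Finset.mul_sum]
            congr 2
            · exact Finset.sum_congr rfl fun j _ => by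
                rw [indicator_of_mem hx, hp]; push_cast; ring
            · simp [hx]
          · simp [hp, i.zf y hy, hε.le]
        · simp [hx, hε.le]⟩
  let g : Fin n → Y × Y' × ℝ → ℂ := fun j q => ex t δ (q.1, z j) * (ρ j q.2.1 * ex t id q.2.2)
  have bg : ∀ j, Bd (g j) := fun j => bd3 (bφ j) (bρ j) bt
  let d : Fin n → K →L[ℂ] K := fun j => E.f (fun x => ex t δ (x, z j)) * (i.a * i.X E') *
    (E'.f (fun y => (ρ j y : ℂ)) * H'.f (ex t id))
  have md' : ∀ j, d j ∈ C.t.HS := fun j => C.bimB.mulD' (C.bimB.mulD _ (pE.cm _ (bφ j)) _ m0)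
    (cm_mul (pE'.cm _ (bρ j)) (cH _ bt))
  have h2 : J.f (∑ j, g j) (C.t.vB (i.a * i.X E')) = C.t.vB (∑ j, d j) := by
    rw [J.sum _ fun j _ => bg j, sum_apply, C.bimB.sum _ fun j _ => md' j]
    exact Finset.sum_congr rfl fun j _ => hJ.ap _ _ _ (bφ j) (bρ j) bt _ m0
  set T := i.Ψ.P i.L * (_ - _) with hT
  have u1 := (hH.star_mul_self bt (norm_ex t id)).1
  have h3 : T * H'.f (ex t id) = ∑ j, d j - χ • (i.a * star u * i.X E') := by
    rw [hT, mul_sub, sub_mul, Finset.mul_sum, Finset.sum_mul]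
    congr 1
    · refine Finset.sum_congr rfl fun j _ => ((i.fix md pE.isP pE'.isP (bφ j) (bρ j) _).trans ?_).symm
      congr 4
      ext y
      simp [hp]
    · simp only [mul_smul_comm, smul_mul_assoc, mul_assoc, u1, mul_one]
      rfl
  have m1 := C.t.HS.sub_mem (C.t.HS.sum_mem fun j (_ : j ∈ Finset.univ) => md' j)
    (C.t.HS.smul_mem χ (mem i))
  have u2 := (hH.star_mul_self bt (norm_ex t id)).2
  have m2 : T ∈ C.t.HS := by
    rw [← mul_one T, ← u2, ← mul_assoc, h3]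
    exact C.bimB.mulD' m1 (C.adj_cm (cH _ bt))
  have h4 : ‖C.t.vB (∑ j, d j) - χ • C.t.vB (i.a * star u * i.X E')‖ ≤ √((M * i.c).toReal) * ε := by
    rw [← C.bimB.smul _ _ (mem i), ← C.bimB.sub (C.t.HS.sum_mem fun j _ => md' j)
      (C.t.HS.smul_mem χ (mem i)), ← h3]
    refine (C.bimB.le' m2 (cH _ bt)).trans ((mul_le_of_le_one_left (norm_nonneg _)
      (H'.norm_le bt zero_le_one fun y => (norm_ex t id y).le)).trans ?_)
    refine (sq_le_sq₀ (norm_nonneg _) (by positivity)).1 ?_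
    rw [C.t.norm_vB m2, mul_pow, Real.sq_sqrt ENNReal.toReal_nonneg]
    simpa [hε.le] using ENNReal.toReal_mono (by have := i.fin; finiteness) h1
  let g₀ : Y × Y' × ℝ → ℂ := fun q => i.Q.indicator 1 q.1 * (i.Q'.indicator 1 q.2.1 * (1 : ℝ → ℂ) q.2.2)
  have bQ' := bd_ind1 i.cQ'.measurableSet
  have b0 : Bd g₀ := bd3 i.bQ bQ' bd_one
  have h5 : J.f g₀ (C.t.vB (i.a * i.X E')) = C.t.vB (i.a * i.X E') := by
    rw [hJ.ap _ _ _ i.bQ bQ' bd_one _ m0, i.fix md pE.isP pE'.isP i.bQ bQ', hH.one, mul_one,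
      indicator_indicator, inter_self]
    congr 4
    ext y
    by_cases hy : y ∈ i.Q' <;> simp [hy, i.zf]
  have bD : Bd (ex t fun p : Y × Y' × ℝ => δ (p.1, p.2.1) + p.2.2) := bd_ex t (by fun_prop)
  have bs := bd_sub bD (bd_sum Finset.univ fun j _ => bg j)
  have h6 := J.norm_apply_le (bd_mul bs b0) hε.le (fun q => by
    by_cases hx : q.1 ∈ i.Q
    · by_cases hy : q.2.1 ∈ i.Q'
      · refine le_trans (le_of_eq ?_) (hρ _ hx _ hy)
        rw [norm_sub_rev, ← mul_one ‖ex t δ _ - _‖, ← norm_ex t id q.2.2, ← norm_mul]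
        congr 1
        simp [g₀, g, hx, hy, ex, mul_add, add_mul, Complex.exp_add, mul_assoc, sub_mul,
          Finset.sum_mul]
      · simp [g₀, hy, hε.le]
    · simp [g₀, hx, hε.le]) (C.t.vB (i.a * i.X E'))
  rw [hJ.isP.mul _ _ bs b0, mapp, h5, J.sub bD (bd_sum Finset.univ fun j _ => bg j), sub_apply,
    h2] at h6
  refine (norm_sub_le_norm_sub_add_norm_sub _ (C.t.vB (∑ j, d j)) _).trans ?_
  linarith

variable {δ : Y × Y' → ℝ} {co : G' → Y → ℝ} {co' : G' → Y' → ℝ} {S' : Set G} {H H' : POM ℝ K}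
  {Ψ₀ : POM Z₀ K}

/-- the relation with a character -/
theorem key' {J : POM (Y × Y' × ℝ) C.t.LB} (geo : Geo Op δ co co')
    (h : St C dir Op co co' S' E E' H H' Ψ₀) (hJ : Jt C E E' H' J) (hM : M ≠ ∞)
    (rs : ∀ t, RS C dir E E' Op M (ex t δ) (H.f (ex t id)) (H'.f (ex t id))) :
    ∃ c : ℝ, ∀ (t : ℝ) (i : Ix C dir E Op), i.a * H.f (ex (-t) id) * i.X E' ∈ C.t.HS ∧
      J.f (ex t fun p => δ (p.1, p.2.1) + p.2.2) (C.t.vB (i.a * i.X E'))
        = Complex.exp (t * c * Complex.I) • C.t.vB (i.a * H.f (ex (-t) id) * i.X E') := by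
  have op := op_ex h.pH (measurable_id (α := ℝ))
  have mD : Measurable fun p : Y × Y' × ℝ => δ (p.1, p.2.1) + p.2.2 := by
    have := geo.meas
    fun_prop
  have oV := op_ex hJ.isP mD
  set u : ℝ → K →L[ℂ] K := fun t => H.f (ex t id) with hu
  set V : ℝ → C.t.LB →L[ℂ] C.t.LB := fun t => J.f (ex t fun p => δ (p.1, p.2.1) + p.2.2) with hV
  change ∃ c : ℝ, ∀ (t : ℝ) (i : Ix C dir E Op), i.a * u (-t) * i.X E' ∈ C.t.HS ∧
    V t _ = _ • C.t.vB (i.a * u (-t) * i.X E')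
  have cu : ∀ t, Cm W (u t) := fun t => (h.u t).1
  let σ : ℝ → Ix C dir E Op → Ix C dir E Op := fun t i =>
    { i with
      Ψ := i.Ψ.cj (u t) (u (-t)) (op.star_eq t) (op.mul_neg t)
      loc := loc_cj i.loc h.mdir h.pE.isP (fun k => bd_ex t (geo.mco _)) (fun k => norm_ex t _)
        (h.u t) _ _ }
  have ea : ∀ t i d, u (-t) * ((σ t i).a * d) = i.a * u (-t) * d := fun t i d => by
    change u (-t) * (u t * i.a * u (-t) * d) = _
    rw [← mul_assoc, ← mul_assoc, ← mul_assoc, op.neg_mul, one_mul]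
  have m0 : ∀ i : Ix C dir E Op, i.a * i.X E' ∈ C.t.HS := fun i =>
    ⟨cm_mul i.cm_a (i.cm_X h.pE h.pE'),
      ne_top_of_le_ne_top (ENNReal.mul_ne_top hM i.fin) (i.hs (rs 0))⟩
  have mem : ∀ t (i : Ix C dir E Op), i.a * u (-t) * i.X E' ∈ C.t.HS := fun t i =>
    ea t i _ ▸ C.bimB.mulD _ (cu _) _ (m0 (σ t i))
  have e1 : ∀ t i, C.t.vB (i.a * u (-t) * i.X E') = LL C (u (-t)) (C.t.vB ((σ t i).a * i.X E')) :=
    fun t i => ((C.bimB.L_v (cu _) (m0 (σ t i))).trans (congrArg _ (ea t i _))).symm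
  by_cases h0 : ∀ i : Ix C dir E Op, C.t.vB (i.a * i.X E') = 0
  · exact ⟨0, fun t i => ⟨mem t i, by
      rw [e1, show C.t.vB ((σ t i).a * i.X E') = 0 from h0 (σ t i), h0, map_zero, map_zero,
        smul_zero]⟩⟩
  push Not at h0
  obtain ⟨i, hi⟩ := h0
  choose κ hκ using fun t => key h.mdir geo.opn geo.meas geo.cont h.pE h.pE' h.pH'
    (cm_of_ex fun t => (h.u' t).1) hJ hM (rs t) fun i => by
      rw [show star (H.f (ex t id)) = u (-t) from op.star_eq t]; exact mem t i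
  replace hκ : ∀ t (i : Ix C dir E Op), V t (C.t.vB (i.a * i.X E'))
      = κ t • C.t.vB (i.a * u (-t) * i.X E') := fun t i => by
    rw [← op.star_eq t]; exact hκ t i
  have nb : ∀ i : Ix C dir E Op, ‖C.t.vB (i.a * i.X E')‖ ≤ √((M * i.c).toReal) := fun i =>
    Real.le_sqrt_of_sq_le (by
      rw [C.t.norm_vB (m0 i)]
      exact ENNReal.toReal_mono (ENNReal.mul_ne_top hM i.fin) (i.hs (rs 0)))
  have n1 : ∀ t, ‖C.t.vB (i.a * i.X E')‖ = ‖κ t‖ * ‖C.t.vB (i.a * u (-t) * i.X E')‖ := fun t => by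
    rw [← norm_smul, ← hκ, oV.norm]
  have p0 := norm_pos_iff.2 hi
  obtain ⟨γ, hγ⟩ : ∃ γ, (i.a * i.X E') (C.t.Om γ) ≠ 0 := by
    by_contra h1
    push Not at h1
    exact hi (by rw [eq_zero_of_Om C (m0 i).1 h1, C.bimB.zero])
  obtain ⟨ev, hev⟩ := exists_ev C γ
  obtain ⟨c, hc⟩ := char' (κ := κ) (r := ‖C.t.vB (i.a * i.X E')‖ / √((M * i.c).toReal))
    (v := fun t => ev (V t (C.t.vB (i.a * i.X E'))))
    (w := fun t => i.a (u (-t) (i.X E' (C.t.Om γ)))) (fun s t => by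
      have h1 : C.t.vB (i.a * u (-(s + t)) * i.X E') ≠ 0 := fun e => by
        have := n1 (s + t)
        rw [e, norm_zero, mul_zero] at this
        exact p0.ne' this
      refine smul_left_injective ℂ h1 ?_
      have h2 := hJ.cm _ (cu (-t)) (h.u (-t)).2.1 _ (bd_ex s mD)
      have h3 := hκ s (σ t i)
      dsimp only
      rw [← hκ, oV.add, mapp, hκ, map_smul, e1, ← mapp, ← show LL C (u (-t)) * V s = _ from h2, mapp,
        show V s (C.t.vB ((σ t i).a * i.X E')) = _ from h3, map_smul, smul_smul, mul_comm,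
        C.bimB.L_v (cu _) (mem s (σ t i)), mul_assoc (σ t i).a, ea, neg_add_rev, op.add]
      simp only [mul_assoc]
      rfl) (div_pos p0 (p0.trans_le (nb i))) (fun t => by
      rw [div_le_iff₀ (p0.trans_le (nb i)), n1 t, e1]
      refine mul_le_mul_of_nonneg_left ((C.bimB.norm_L (cu _) _).trans ?_) (norm_nonneg _)
      exact (mul_le_of_le_one_left (norm_nonneg _) (H.norm_le (bd_ex _ measurable_id) zero_le_one
        fun y => (norm_ex _ id y).le)).trans (nb (σ t i)))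
    (ev.continuous.comp (oV.cont _)) (i.a.continuous.comp ((op.cont _).comp continuous_neg))
    (by rw [neg_zero, op.zero]; exact hγ) fun t => by rw [hκ, map_smul, hev _ (mem t i)]; rfl
  exact ⟨c, fun t i => ⟨mem t i, hc t ▸ hκ t i⟩⟩

/-- **the end game** -/
theorem endg (geo : Geo Op δ co co') (h : St C dir Op co co' S' E E' H H' Ψ₀) (hM : M ≠ ∞)
    (rs : ∀ t, RS C dir E E' Op M (ex t δ) (H.f (ex t id)) (H'.f (ex t id))) :
    ∃ c, Out E E' H H' Op δ c := by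
  have cH := cm_of_ex fun t => (h.u t).1
  have cH' := cm_of_ex fun t => (h.u' t).1
  obtain ⟨J, hJ⟩ := exists_jt C h.pE.isP h.pE'.isP h.pH' h.pE.cm h.pE'.cm cH' fun ψ g hψ hg =>
    tw_of_ex H' H' _ (fun t => ((h.u' t).2.1 ψ hψ).symm) hg
  obtain ⟨c, hc⟩ := key' geo h hJ hM rs
  refine ⟨c, fun I I' Q Q' hI hI' hQ hQ' hs hne => ?_⟩
  have mD : Measurable fun p : Y × Y' × ℝ => δ (p.1, p.2.1) + p.2.2 := by
    have := geo.meas
    fun_prop
  have mc : Measurable fun s : ℝ => c - s := by fun_prop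
  obtain ⟨O, O', -, h1, h2, h3, h4⟩ := generalized_tube_lemma hQ hQ' geo.opn hs
  obtain ⟨Q₃, f, h5, h6, h7, h8, h9⟩ := exists_bump hQ' h1 h3
  have h10 : Q ×ˢ Q₃ ⊆ Op := (prod_mono h2 h6).trans h4
  have bQ := bd_ind1 hQ.measurableSet
  have bQ' := bd_ind1 hQ'.measurableSet
  have bI' := bd_ind1 hI'
  have b3 := bd3 bQ bQ' bI'
  have e1 : E'.f (fun y => (f y : ℂ)) * E'.P Q' = E'.P Q' := by
    rw [h.pE'.isP.f_mul_P hQ'.measurableSet (bd_cc f)]
    exact congrArg _ (indicator_congr fun y hy => by simp [h7 y hy])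
  have e2 : E.P Q * H.P I = H.P I * E.P Q :=
    tw_of_ex H H _ (fun t => ((h.u t).2.1 _ bQ).symm) (bd_ind1 hI)
  refine eq_zero_of_Om C (cm_mul (cm_mul (cH _ (bd_ind1 hI)) (h.pE.cm _ bQ))
    (cm_mul (h.pE'.cm _ bQ') (cH' _ bI'))) fun γ => ?_
  obtain ⟨ev, hev⟩ := exists_ev C γ
  set w := (H.P I * E.P Q * (E'.P Q' * H'.P I')) (C.t.Om γ) with hw
  have h11 : ∀ L, IsCompact L → E.P Q (Ψ₀.P L w) = 0 := fun L hL => by
    obtain ⟨c', k1, k2⟩ := h.pr L Q Q₃ hL hQ h5 h10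
    let i : Ix C dir E Op := ⟨Ψ₀, L, Q, Q₃, c', f, h.loc, hL.measurableSet, hQ, h5, h10, k1, k2,
      fun y => abs_le.2 ⟨by linarith [(h9 y).1], (h9 y).2⟩, h8⟩
    have k3 := ap_of_ex (J.map _ mD) (H.map _ mc) ev (E.P Q * i.a)
      (J.f (fun p => Q.indicator 1 p.1 * (Q'.indicator 1 p.2.1 * I'.indicator 1 p.2.2))
        (C.t.vB (i.a * i.X E'))) ((i.X E' * (E'.P Q' * H'.P I')) (C.t.Om γ)) (fun t => by
        have k4 : ex t id ∘ (fun s : ℝ => c - s)
            = Complex.exp (t * c * Complex.I) • ex (-t) id := by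
          ext s
          simp [ex, ← Complex.exp_add]; ring_nf
        rw [map_f, map_f, k4, H.smul _ (bd_ex _ measurable_id), ← mapp,
          hJ.isP.comm (bd_comp (bd_ex t measurable_id) mD) b3, mapp,
          show J.f (ex t id ∘ _) _ = _ from (hc t i).2, map_smul, map_smul,
          hJ.ap _ _ _ bQ bQ' bI' _ (hc t i).1, hev _ (C.bimB.mulD' (C.bimB.mulD _ (h.pE.cm _ bQ) _
            (hc t i).1) (cm_mul (h.pE'.cm _ bQ') (cH' _ bI'))), smul_apply, map_smul]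
        rfl) (mc hI)
    rw [map_P, map_P, ← mapp (J.P _), hJ.isP.P_mul_f (mD (mc hI)) b3,
      show (fun s : ℝ => c - s) ⁻¹' ((fun s : ℝ => c - s) ⁻¹' I) = I by ext s; simp,
      show indicator _ _ = 0 from funext fun p => ?_, J.zero, zero_apply, map_zero] at k3
    · rw [hw, ← e1]
      exact k3.symm
    · by_cases a : p.1 ∈ Q
      · by_cases b : p.2.1 ∈ Q'
        · by_cases d : p.2.2 ∈ I'
          · refine indicator_of_notMem (fun k => ?_) _
            exact hne (c - (δ (p.1, p.2.1) + p.2.2)) k _ d _ a _ b (by ring)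
          · simp [indicator, d]
        · simp [indicator, b]
      · simp [indicator, a]
  obtain ⟨c₀, k1, k2⟩ := h.one
  have k3 := Ψ₀.tendsto_P_iUnion (fun n => (isCompact_compactCovering Z₀ n).measurableSet)
    (fun _ _ e => compactCovering_subset Z₀ e) w
  rw [iUnion_compactCovering, Ψ₀.P_univ, k2] at k3
  have k4 := tendsto_nhds_unique (((E.P Q).continuous.tendsto _).comp k3)
    (tendsto_const_nhds.congr fun n => (h11 _ (isCompact_compactCovering Z₀ n)).symm)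
  rw [smul_apply, oapp, map_smul, smul_eq_zero_iff_right k1, hw, ← mapp, ← mul_assoc, ← mul_assoc,
    ← mul_assoc, e2, mul_assoc (H.P I), h.pE.isP.P_idem hQ.measurableSet, mul_assoc] at k4
  exact k4

end Vale.Agent.P092EG
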