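import Vale.Agent.P092EG.End
import Vale.Agent.P092RK.CoreE

/-!
P092 (helper32), block REL: the abstract form of REL holds.
-/

set_option linter.all false

open MeasureTheory

namespace Vale.Agent.P092EG

open Vale.Agent.P092CP Vale.Agent.P092RK

variable {G G' K : Type} [Group G] [TopologicalSpace G] [IsTopologicalGroup G]
  [LocallyCompactSpace G] [SecondCountableTopology G] [T2Space G] [MeasurableSpace G] [BorelSpace G]
  [Group G'] [TopologicalSpace G'] [IsTopologicalGroup G'] [LocallyCompactSpace G']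
  [SecondCountableTopology G'] [T2Space G'] [MeasurableSpace G'] [BorelSpace G']
  [NormedAddCommGroup K] [InnerProductSpace ℂ K] [CompleteSpace K] {μ : Measure G}
  [μ.IsHaarMeasure] {μ' : Measure G'} [μ'.IsHaarMeasure] {W : Set (K →L[ℂ] K)}
  (C : Cpl μ μ' W) (Y Y' Z₀ : Type) [TopologicalSpace Y] [MeasurableSpace Y] [BorelSpace Y]
  [CompactSpace Y] [T2Space Y] [SecondCountableTopology Y] [Nonempty Y] [MulAction G' Y]
  [ContinuousSMul G' Y] [TopologicalSpace Y'] [MeasurableSpace Y'] [BorelSpace Y'] [CompactSpace Y']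
  [T2Space Y'] [SecondCountableTopology Y'] [Nonempty Y'] [MulAction G' Y'] [ContinuousSMul G' Y']
  [TopologicalSpace Z₀] [MeasurableSpace Z₀] [BorelSpace Z₀] [LocallyCompactSpace Z₀] [T2Space Z₀]
  [SecondCountableTopology Z₀] [MulAction G' Z₀] [ContinuousSMul G' Z₀]

theorem endg_all : ENDG C Y Y' Z₀ := fun _ _ _ _ _ _ _ _ _ _ _ _ geo h hM rs => endg geo h hM rs

/-- **CORE** -/
theorem core : CORE C Y Y' Z₀ := core_end (endg_all C Y Y' Z₀)

end Vale.Agent.P092EG
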