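import Vale.Agent.P092EG.Pm
import Vale.Agent.P092RK.RDefs

/-!
P092 (helper32), block REL, piece (C): the joint measure of the left and right calculi on the
Hilbert-Schmidt space.
-/

set_option linter.all false

open scoped InnerProductSpace ENNReal NNReal CompactlySupported Pointwise
open MeasureTheory Filter Topology ContinuousLinearMap Set

namespace Vale.Agent.P092EG

open Vale.Agent.P092CP Vale.Agent.P092RD Vale.Agent.P092RD.POM Vale.Agent.P092SB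
open Vale.Agent.P092.RC (Cm Moore)

variable {G G' K : Type} [Group G] [TopologicalSpace G] [IsTopologicalGroup G]
  [LocallyCompactSpace G] [SecondCountableTopology G] [T2Space G] [MeasurableSpace G] [BorelSpace G]
  [Group G'] [TopologicalSpace G'] [IsTopologicalGroup G'] [LocallyCompactSpace G']
  [SecondCountableTopology G'] [T2Space G'] [MeasurableSpace G'] [BorelSpace G']
  [NormedAddCommGroup K] [InnerProductSpace ℂ K] [CompleteSpace K] {μ : Measure G}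
  [μ.IsHaarMeasure] {μ' : Measure G'} [μ'.IsHaarMeasure] {W : Set (K →L[ℂ] K)}

/-- left multiplication on `L²(B, Tr)` -/
noncomputable abbrev LL (C : Cpl μ μ' W) (a : K →L[ℂ] K) : C.t.LB →L[ℂ] C.t.LB :=
  P092CP.Lm C.t.HS C.t.vB a

/-- right multiplication on `L²(B, Tr)` -/
noncomputable abbrev RR (C : Cpl μ μ' W) (a : K →L[ℂ] K) : C.t.LB →L[ℂ] C.t.LB :=
  P092CP.Rm C.t.HS C.t.vB a

section one

variable {Y : Type} [TopologicalSpace Y] [MeasurableSpace Y] [BorelSpace Y]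
  [LocallyCompactSpace Y] [T2Space Y] [SecondCountableTopology Y]

theorem exists_L (C : Cpl μ μ' W) {E : POM Y K} (hE : E.IsP) (cm : ∀ g, Bd g → Cm W (E.f g)) :
    ∃ θ : POM Y C.t.LB, θ.IsP ∧ ∀ g, Bd g → θ.f g = LL C (E.f g) := by
  refine exists_ofBd _ (fun g h hg hh => ?_) (fun c g hg => ?_) (fun g h hg hh => ?_)
    (fun g hg => ?_) ?_ fun F g c hF hg hc hl ξ => ?_
  · rw [E.add hg hh]; exact C.bimB.L_add (cm g hg) (cm h hh) (cm_add (cm g hg) (cm h hh))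
  · rw [E.smul c hg]; exact C.bimB.L_smul c (cm g hg) (cm_smul c (cm g hg))
  · rw [hE.mul g h hg hh]; exact C.bimB.L_mul (cm g hg) (cm h hh) (cm_mul (cm g hg) (cm h hh))
  · rw [← E.star_f hg]; exact C.bimB.adjoint_L (cm g hg)
  · rw [hE.one]; exact C.bimB.L_one cm_one
  · exact C.tendsto_L (c := |c|) (Eventually.of_forall fun n => ⟨cm _ (hF n), E.norm_le (hF n)
      (abs_nonneg c) fun y => (hc n y).trans (le_abs_self c)⟩) (cm g hg)
      (E.tendsto_strong hF hg hc hl) ξ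

theorem exists_R (C : Cpl μ μ' W) {E : POM Y K} (hE : E.IsP) (cm : ∀ g, Bd g → Cm W (E.f g)) :
    ∃ θ : POM Y C.t.LB, θ.IsP ∧ ∀ g, Bd g → θ.f g = RR C (E.f g) := by
  refine exists_ofBd _ (fun g h hg hh => ?_) (fun c g hg => ?_) (fun g h hg hh => ?_)
    (fun g hg => ?_) ?_ fun F g c hF hg hc hl ξ => ?_
  · rw [E.add hg hh]; exact C.bimB.R_add (cm g hg) (cm h hh) (cm_add (cm g hg) (cm h hh))
  · rw [E.smul c hg]; exact C.bimB.R_smul c (cm g hg) (cm_smul c (cm g hg))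
  · rw [mul_comm, hE.mul h g hh hg]
    exact C.bimB.R_mul (cm h hh) (cm g hg) (cm_mul (cm h hh) (cm g hg))
  · rw [← E.star_f hg]; exact C.bimB.adjoint_R (cm g hg)
  · rw [hE.one]; exact C.bimB.R_one cm_one
  · refine C.bimB.tendsto_R (Eventually.of_forall fun n => cm _ (hF n)) (cm g hg) (fun η => ?_) ξ
    simp only [← star_eq_adjoint, E.star_f hg, E.star_f (hF _)]
    exact C.tendsto_L (c := |c|) (Eventually.of_forall fun n => ⟨cm _ (bd_star (hF n)),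
      E.norm_le (bd_star (hF n)) (abs_nonneg c) fun y => by
        simpa using (hc n y).trans (le_abs_self c)⟩) (cm _ (bd_star hg))
      (E.tendsto_strong (C := c) (fun n => bd_star (hF n)) (bd_star hg)
        (fun n y => by simpa using hc n y) fun y => (hl y).star) η

end one

theorem sbs (Y : Type) [TopologicalSpace Y] [MeasurableSpace Y] [BorelSpace Y] [CompactSpace Y]
    [T2Space Y] [SecondCountableTopology Y] : StandardBorelSpace Y := by
  letI := TopologicalSpace.metrizableSpaceMetric Y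
  infer_instance

variable {Y Y' : Type} [TopologicalSpace Y] [MeasurableSpace Y] [BorelSpace Y] [CompactSpace Y]
  [T2Space Y] [SecondCountableTopology Y] [Nonempty Y] [TopologicalSpace Y'] [MeasurableSpace Y']
  [BorelSpace Y'] [CompactSpace Y'] [T2Space Y'] [SecondCountableTopology Y'] [Nonempty Y']

/-- the joint measure of `L ∘ E`, `R ∘ E'` and `R ∘ H'` -/
structure Jt (C : Cpl μ μ' W) (E : POM Y K) (E' : POM Y' K) (H' : POM ℝ K)
    (J : POM (Y × Y' × ℝ) C.t.LB) : Prop where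
  isP : J.IsP
  ap : ∀ φ ψ g, Bd φ → Bd ψ → Bd g → ∀ d ∈ C.t.HS,
    J.f (fun p => φ p.1 * (ψ p.2.1 * g p.2.2)) (C.t.vB d) = C.t.vB (E.f φ * d * (E'.f ψ * H'.f g))
  cm : ∀ a, Cm W a → (∀ φ, Bd φ → a * E.f φ = E.f φ * a) →
    ∀ g, Bd g → LL C a * J.f g = J.f g * LL C a

theorem exists_jt (C : Cpl μ μ' W) {E : POM Y K} {E' : POM Y' K} {H' : POM ℝ K} (hE : E.IsP)
    (hE' : E'.IsP) (hH : H'.IsP) (cE : ∀ g, Bd g → Cm W (E.f g)) (cE' : ∀ g, Bd g → Cm W (E'.f g))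
    (cH : ∀ g, Bd g → Cm W (H'.f g))
    (co : ∀ ψ g, Bd ψ → Bd g → E'.f ψ * H'.f g = H'.f g * E'.f ψ) : ∃ J, Jt C E E' H' J := by
  haveI := sbs Y
  haveI := sbs Y'
  obtain ⟨θ₁, a1, b1⟩ := exists_L C hE cE
  obtain ⟨θ₂, a2, b2⟩ := exists_R C hE' cE'
  obtain ⟨θ₃, a3, b3⟩ := exists_R C hH cH
  have rm : ∀ ψ g, Bd ψ → Bd g → θ₂.f ψ * θ₃.f g = RR C (E'.f ψ * H'.f g) := fun ψ g hψ hg => by
    rw [b2 ψ hψ, b3 g hg, co ψ g hψ hg]
    exact (C.bimB.R_mul (cH g hg) (cE' ψ hψ) (cm_mul (cH g hg) (cE' ψ hψ))).symm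
  obtain ⟨θ, a4, b4, b5⟩ := joint a2 a3 fun A B hA hB => by
    have hA' := bd_ind1 hA
    have hB' := bd_ind1 hB
    rw [P, P, rm _ _ hA' hB', b2 _ hA', b3 _ hB']
    exact C.bimB.R_mul (cE' _ hA') (cH _ hB') (cm_mul (cE' _ hA') (cH _ hB'))
  have lc : ∀ a, Cm W a → ∀ g, Bd g → LL C a * θ.f g = θ.f g * LL C a := fun a ha =>
    joint_comm a4 (fun g hg => by rw [b4 g hg, b2 g hg]; exact C.bimB.L_R ha (cE' g hg))
      fun g hg => by rw [b5 g hg, b3 g hg]; exact C.bimB.L_R ha (cH g hg)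
  obtain ⟨J, a5, b6, b7⟩ := joint a1 a4 fun A B hA hB => by
    rw [P, b1 _ (bd_ind1 hA)]
    exact lc _ (cE _ (bd_ind1 hA)) _ (bd_ind1 hB)
  refine ⟨J, a5, fun φ ψ g hφ hψ hg d hd => ?_, fun a ha h => joint_comm a5 (fun g hg => ?_)
    fun g hg => by rw [b7 g hg]; exact lc a ha g hg⟩
  · have c1 := cm_mul (cE' ψ hψ) (cH g hg)
    rw [joint_mul a5 b6 b7 (h := fun q => ψ q.1 * g q.2) hφ
      (bd_mul (bd_comp hψ measurable_fst) (bd_comp hg measurable_snd)), joint_mul a4 b4 b5 hψ hg,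
      rm ψ g hψ hg, b1 φ hφ, mapp, C.bimB.R_v c1 hd, C.bimB.L_v (cE φ hφ) (C.bimB.mulD' hd c1),
      mul_assoc]
  · rw [b6 g hg, b1 g hg, ← C.bimB.L_mul ha (cE g hg) (cm_mul ha (cE g hg)), h g hg,
      C.bimB.L_mul (cE g hg) ha (cm_mul (cE g hg) ha)]

/-- evaluation at the vectors of the lattice -/
theorem exists_ev (C : Cpl μ μ' W) (γ : C.t.Γ) :
    ∃ ev : C.t.LB →L[ℂ] K, ∀ d ∈ C.t.HS, ev (C.t.vB d) = d (C.t.Om γ) := by
  have h0 : 0 < (μ' C.t.D).toReal := ENNReal.toReal_pos C.t.vol_ne C.t.vol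
  obtain ⟨T, h, -⟩ := C.bimB.exists_ext (σ := RingHom.id ℂ) (w := fun d => d (C.t.Om γ))
    (fun _ _ _ _ => rfl) (fun _ _ _ => rfl) (C := √((μ' C.t.D).toReal⁻¹)) fun d hd => by
    refine (sq_le_sq₀ (norm_nonneg _) (by positivity)).1 ?_
    rw [mul_pow, Real.sq_sqrt (by positivity), C.t.norm_vB hd, le_inv_mul_iff₀ h0]
    have h1 : μ' C.t.D * ‖d (C.t.Om γ)‖ₑ ^ 2 ≤ C.t.Tr d := by
      rw [C.t.Tr_eq_tsum hd.1]
      gcongr
      exact ENNReal.le_tsum (f := fun γ => ‖d (C.t.Om γ)‖ₑ ^ 2) γ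
    simpa using ENNReal.toReal_mono hd.2 h1
  exact ⟨T, h⟩

theorem eq_zero_of_Om (C : Cpl μ μ' W) {T : K →L[ℂ] K} (hT : Cm W T)
    (h : ∀ γ, T (C.t.Om γ) = 0) : T = 0 :=
  C.tr_zero T hT (by rw [C.t.Tr_eq_tsum hT]; simp [h])

theorem cm_of_ex {H : POM ℝ K} (h : ∀ t, Cm W (H.f (ex t id))) (g : ℝ → ℂ) (hg : Bd g) :
    Cm W (H.f g) := fun w hw => (tw_of_ex H H w (fun t => (h t w hw).symm) hg).symm

end Vale.Agent.P092EG
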