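import Vale.Agent.P092SB.Lift

/-!
P092 (helper32), block REL, piece (C): general lemmas on operator valued measures.
-/

set_option linter.all false

open scoped InnerProductSpace ENNReal NNReal CompactlySupported
open MeasureTheory Filter Topology ContinuousLinearMap Set

namespace Vale.Agent.P092EG

open Vale.Agent.P092CP (Bd)
open Vale.Agent.P092RD Vale.Agent.P092RD.POM Vale.Agent.P092SB

variable {K K' : Type} [NormedAddCommGroup K] [InnerProductSpace ℂ K] [CompleteSpace K]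
  [NormedAddCommGroup K'] [InnerProductSpace ℂ K'] [CompleteSpace K']

/-- a normal *-homomorphism on the bounded Borel functions is a projection valued measure -/
theorem exists_ofBd {Y : Type} [TopologicalSpace Y] [MeasurableSpace Y] [BorelSpace Y]
    [LocallyCompactSpace Y] [T2Space Y] [SecondCountableTopology Y] (Φ : (Y → ℂ) → K →L[ℂ] K)
    (add : ∀ g h, Bd g → Bd h → Φ (g + h) = Φ g + Φ h)
    (smul : ∀ (c : ℂ) g, Bd g → Φ (c • g) = c • Φ g)
    (mul : ∀ g h, Bd g → Bd h → Φ (g * h) = Φ g * Φ h)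
    (st : ∀ g, Bd g → adjoint (Φ g) = Φ (star g)) (one : Φ 1 = 1)
    (lim : ∀ (F : ℕ → Y → ℂ) (g : Y → ℂ) (C : ℝ), (∀ n, Bd (F n)) → Bd g → (∀ n x, ‖F n x‖ ≤ C) →
      (∀ x, Tendsto (fun n => F n x) atTop (𝓝 (g x))) → ∀ ξ,
      Tendsto (fun n => Φ (F n) ξ) atTop (𝓝 (Φ g ξ))) :
    ∃ θ : POM Y K, θ.IsP ∧ ∀ g, Bd g → θ.f g = Φ g := by
  have sa : ∀ a : Y → ℝ, Bd (fun y => (a y : ℂ)) →
      adjoint (Φ fun y => (a y : ℂ)) = Φ fun y => (a y : ℂ) := fun a ha => by
    rw [st _ ha]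
    congr 1
    ext y
    simp
  have pos : ∀ a : Y → ℝ, Measurable a → (∀ y, 0 ≤ a y) → (∃ C, ∀ y, a y ≤ C) → ∀ ξ,
      0 ≤ (⟪ξ, Φ (fun y => (a y : ℂ)) ξ⟫_ℂ).re := by
    rintro a ha h0 ⟨C, hC⟩ ξ
    have hb : Bd fun y => ((√(a y) : ℝ) : ℂ) := bd_real ha.sqrt (C := √C) fun y => by
      rw [abs_of_nonneg (Real.sqrt_nonneg _)]; exact Real.sqrt_le_sqrt (hC y)
    have e : (fun y => (a y : ℂ)) = (fun y => ((√(a y) : ℝ) : ℂ)) * fun y => ((√(a y) : ℝ) : ℂ) := by
      ext y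
      rw [Pi.mul_apply, ← Complex.ofReal_mul, Real.mul_self_sqrt (h0 y)]
    rw [e, mul _ _ hb hb, mapp, ← adjoint_inner_left, sa _ hb]
    exact inner_self_nonneg (𝕜 := ℂ)
  obtain ⟨θ, hθ⟩ := exists_ofCc (fun g : C_c(Y, ℝ) => Φ fun y => (g y : ℂ)) (fun g h => by
      rw [← add _ _ (bd_cc g) (bd_cc h)]; congr 1; ext y; simp) (fun c g => by
      rw [← smul _ _ (bd_cc g)]; congr 1; ext y; simp) (fun g ξ => by
      rw [← Complex.conj_eq_iff_im, inner_conj_symm, ← adjoint_inner_right, sa _ (bd_cc g)])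
    (fun g hg => pos _ g.continuous.measurable hg (by
      obtain ⟨C, hC⟩ := (bd_cc g).bdd
      exact ⟨C, fun y => (le_abs_self _).trans (by simpa using hC y)⟩)) fun g hg ξ => by
      have h1 := pos (fun y => 1 - g y) (measurable_const.sub g.continuous.measurable)
        (fun y => sub_nonneg.2 (hg y).2) ⟨1, fun y => by linarith [(hg y).1]⟩ ξ
      have h2 : (fun y => ((1 - g y : ℝ) : ℂ)) = 1 + (-1 : ℂ) • fun y => (g y : ℂ) := by
        ext y
        simp [sub_eq_add_neg]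
      rw [h2, add _ _ bd_one (bd_smul _ (bd_cc g)), smul _ _ (bd_cc g), one] at h1
      simpa [inner_add_right, inner_self_eq_norm_sq_to_K, ← Complex.ofReal_pow] using h1
  have key : ∀ g, Bd g → θ.f g = Φ g := by
    refine Cls.of_cc ⟨fun c g hg e => ?_, fun g h hg hh e e' => ?_, fun F g C hF hg hC hl e => ?_⟩ hθ
    · rw [θ.smul c hg, smul c g hg, e]
    · rw [θ.add hg hh, add g h hg hh, e, e']
    · exact ContinuousLinearMap.ext fun ξ => tendsto_nhds_unique (θ.tendsto_strong hF hg hC hl ξ)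
        ((lim F g C hF hg hC hl ξ).congr fun n => by rw [e n])
  exact ⟨θ, ⟨by rw [key _ bd_one, one], fun g h hg hh => by
    rw [key _ (bd_mul hg hh), key g hg, key h hh, mul g h hg hh]⟩, key⟩

/-- what commutes with the two factors commutes with the joint measure -/
theorem joint_comm {Y Z : Type} [MeasurableSpace Y] [MeasurableSpace Z] {J : POM (Y × Z) K}
    (hJ : J.IsP) {T : K →L[ℂ] K}
    (h1 : ∀ g, Bd g → T * J.f (g ∘ Prod.fst) = J.f (g ∘ Prod.fst) * T)
    (h2 : ∀ g, Bd g → T * J.f (g ∘ Prod.snd) = J.f (g ∘ Prod.snd) * T) :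
    ∀ g, Bd g → T * J.f g = J.f g * T := by
  refine (J.cls_comm T).of_pi generateFrom_prod.symm isPiSystem_prod
    (by rw [hJ.one, mul_one, one_mul]) ?_
  rintro _ ⟨A, hA, B, hB, rfl⟩
  have e : (A ×ˢ B).indicator (1 : Y × Z → ℂ)
      = (A.indicator 1 ∘ Prod.fst) * (B.indicator 1 ∘ Prod.snd) := by
    ext p
    by_cases a : p.1 ∈ A <;> by_cases b : p.2 ∈ B <;> simp [a, b, indicator]
  have bA := bd_ind1 (show MeasurableSet A from hA)
  have bB := bd_ind1 (show MeasurableSet B from hB)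
  rw [e, hJ.mul _ _ (bd_comp bA measurable_fst) (bd_comp bB measurable_snd), ← mul_assoc, h1 _ bA,
    mul_assoc, h2 _ bB, mul_assoc]

/-- matrix elements which agree on the exponentials agree -/
theorem ap_of_ex {L : Type} [NormedAddCommGroup L] [InnerProductSpace ℂ L] [CompleteSpace L]
    (θ : POM ℝ K) (θ' : POM ℝ K') (S : K →L[ℂ] L) (S' : K' →L[ℂ] L) (y : K) (y' : K')
    (h : ∀ t, S (θ.f (ex t id) y) = S' (θ'.f (ex t id) y')) {A : Set ℝ} (hA : MeasurableSet A) :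
    S (θ.P A y) = S' (θ'.P A y') := by
  have b := fun t => bd_ex (Y := ℝ) t measurable_id
  have bc : ∀ t : ℝ, Bd fun y : ℝ => (Real.cos (t * y) : ℂ) := fun t =>
    bd_real (by fun_prop) fun y => Real.abs_cos_le_one _
  have bs : ∀ t : ℝ, Bd fun y : ℝ => (Real.sin (t * y) : ℂ) := fun t =>
    bd_real (by fun_prop) fun y => Real.abs_sin_le_one _
  have lin : ∀ (t : ℝ) (c d : ℂ) (g : ℝ → ℂ), g = c • ex t id + d • ex (-t) id →
      S (θ.f g y) = S' (θ'.f g y') := by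
    rintro t c d _ rfl
    simp only [POM.add _ (bd_smul c (b t)) (bd_smul d (b (-t))), POM.smul _ _ (b _), add_apply,
      smul_apply, map_add, map_smul, h]
  have hcos := fun t : ℝ => lin t (1 / 2) (1 / 2) (fun y => (Real.cos (t * y) : ℂ)) (by
    ext y
    simp [ex, Complex.cos]; ring)
  have hsin := fun t : ℝ => lin t (-Complex.I / 2) (Complex.I / 2)
    (fun y => (Real.sin (t * y) : ℂ)) (by
    ext y
    simp [ex, Complex.sin]; ring)
  have key : ∀ {a : ℝ → ℝ}, Bd (fun y => (a y : ℂ)) → ∀ x : L,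
      ((⟪x, S (θ.f (fun y => (a y : ℂ)) y)⟫_ℂ).re = (⟪x, S' (θ'.f (fun y => (a y : ℂ)) y')⟫_ℂ).re
      ↔ ∫ z, a z ∂(θ.ν (adjoint S x + y) + θ'.ν (adjoint S' x - y'))
        = ∫ z, a z ∂(θ.ν (adjoint S x - y) + θ'.ν (adjoint S' x + y'))) := by
    intro a ha x
    have hi : ∀ (μ : Measure ℝ) [IsFiniteMeasure μ], Integrable a μ := fun μ _ => by
      simpa using (bd_int ha μ).re
    rw [← adjoint_inner_left S, ← adjoint_inner_left S', θ.re_inner_real ha, θ'.re_inner_real ha,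
      integral_add_measure (hi _) (hi _), integral_add_measure (hi _) (hi _)]
    constructor <;> intro e <;> linarith
  have hm : ∀ x : L, θ.ν (adjoint S x + y) + θ'.ν (adjoint S' x - y')
      = θ.ν (adjoint S x - y) + θ'.ν (adjoint S' x + y') := fun x => by
    refine Measure.ext_of_charFun (funext fun t => ?_)
    have e : ∀ (μ : Measure ℝ) [IsFiniteMeasure μ], charFun μ t
        = (∫ z, Real.cos (t * z) ∂μ : ℝ) + (∫ z, Real.sin (t * z) ∂μ : ℝ) * Complex.I := by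
      intro μ _
      rw [charFun_apply_real, ← integral_complex_ofReal, ← integral_complex_ofReal,
        ← integral_mul_const, ← integral_add (bd_int (bc t) μ) ((bd_int (bs t) μ).mul_const _)]
      refine integral_congr_ae (Eventually.of_forall fun z => ?_)
      simp [Complex.exp_mul_I]
    rw [e, e, (key (bc t) x).1 (by rw [hcos]), (key (bs t) x).1 (by rw [hsin])]
  have e : A.indicator (1 : ℝ → ℂ) = fun y => ((A.indicator (1 : ℝ → ℝ) y : ℝ) : ℂ) := by
    ext y; by_cases hy : y ∈ A <;> simp [hy]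
  have hb : Bd fun y => ((A.indicator (1 : ℝ → ℝ) y : ℝ) : ℂ) := e ▸ bd_ind1 hA
  rw [P, P, e]
  refine ext_inner_left ℂ fun x => Complex.ext ((key hb x).2 (by rw [hm])) ?_
  have := (key hb (Complex.I • x)).2 (by rw [hm])
  simpa [inner_smul_left] using this

/-- uniform approximation of a continuous kernel by sums of products -/
theorem exists_apx {Y Y' : Type} [TopologicalSpace Y] [TopologicalSpace Y'] [CompactSpace Y']
    [T2Space Y'] {Op : Set (Y × Y')} {e : Y × Y' → ℂ} (he : ContinuousOn e Op) (hO : IsOpen Op)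
    {Q : Set Y} {Q' : Set Y'} (hQ : IsCompact Q) (hQ' : IsCompact Q') (hs : Q ×ˢ Q' ⊆ Op) {ε : ℝ}
    (hε : 0 < ε) : ∃ (n : ℕ) (z : Fin n → Y') (ρ : Fin n → C(Y', ℝ)),
      ∀ x ∈ Q, ∀ y ∈ Q', ‖∑ j, e (x, z j) * ρ j y - e (x, y)‖ ≤ ε := by
  have h1 : ∀ z ∈ Q', ∃ O : Set Y', IsOpen O ∧ z ∈ O ∧
      ∀ y ∈ O, ∀ x ∈ Q, ‖e (x, z) - e (x, y)‖ ≤ ε := fun z hz => by
    have : ∀ᶠ y in 𝓝 z, ∀ x ∈ Q, ‖e (x, z) - e (x, y)‖ ≤ ε := by
      refine hQ.eventually_forall_of_forall_eventually fun x hx => ?_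
      have c := he.continuousAt (hO.mem_nhds (hs (mk_mem_prod hx hz)))
      have c1 : Tendsto (fun p : Y' × Y => e (p.2, z)) (𝓝 (z, x)) (𝓝 (e (x, z))) :=
        c.tendsto.comp ((show Continuous fun p : Y' × Y => (p.2, z) by fun_prop).tendsto (z, x))
      have c2 : Tendsto (fun p : Y' × Y => e (p.2, p.1)) (𝓝 (z, x)) (𝓝 (e (x, z))) :=
        c.tendsto.comp ((show Continuous fun p : Y' × Y => (p.2, p.1) by fun_prop).tendsto (z, x))
      have c3 := (c1.sub c2).norm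
      rw [sub_self, norm_zero] at c3
      exact c3.eventually (ge_mem_nhds hε)
    obtain ⟨O, h2, h3, h4⟩ := eventually_nhds_iff.1 this
    exact ⟨O, h3, h4, h2⟩
  choose! O h2 h3 h4 using h1
  obtain ⟨t, h5, h6⟩ := hQ'.elim_nhds_subcover O fun z hz => (h2 z hz).mem_nhds (h3 z hz)
  let z : Fin t.card → Y' := fun j => t.equivFin.symm j
  have hz : ∀ j, z j ∈ Q' := fun j => h5 _ (t.equivFin.symm j).2
  obtain ⟨ρ, r1, r2, r3, -⟩ := exists_continuous_sum_one_of_isOpen_isCompact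
    (s := fun j => O (z j)) (fun j => h2 _ (hz j)) hQ' fun y hy => by
      obtain ⟨w, hw, h7⟩ := mem_iUnion₂.1 (h6 hy)
      exact mem_iUnion.2 ⟨t.equivFin ⟨w, hw⟩, by simpa [z] using h7⟩
  refine ⟨_, z, ρ, fun x hx y hy => ?_⟩
  have s1 : ∑ j, ρ j y = 1 := by simpa using r2 hy
  have s2 : ∑ j, e (x, z j) * ρ j y - e (x, y) = ∑ j, (e (x, z j) - e (x, y)) * ρ j y := by
    simp only [sub_mul, Finset.sum_sub_distrib, ← Finset.mul_sum, ← Complex.ofReal_sum, s1]
    simp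
  rw [s2, ← mul_one ε, ← s1, Finset.mul_sum]
  refine norm_sum_le_of_le _ fun j _ => ?_
  rw [norm_mul, Complex.norm_real, Real.norm_of_nonneg (r3 j y).1]
  by_cases h7 : y ∈ O (z j)
  · exact mul_le_mul_of_nonneg_right (h4 _ (hz j) y h7 x hx) (r3 j y).1
  · rw [image_eq_zero_of_notMem_tsupport fun h8 => h7 (r1 j h8), mul_zero, mul_zero]

/-- approximate proportionality with a common factor gives proportionality -/
theorem exists_kap {ι : Type*} {v η : ι → K} {C : ι → ℝ}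
    (h : ∀ ε : ℝ, 0 < ε → ∃ χ : ℂ, ∀ i, ‖v i - χ • η i‖ ≤ C i * ε) :
    ∃ κ : ℂ, ∀ i, v i = κ • η i := by
  choose χ hχ using fun n : ℕ => h (1 / ((n : ℝ) + 1)) Nat.one_div_pos_of_nat
  have h1 : ∀ i, Tendsto (fun n => χ n • η i) atTop (𝓝 (v i)) := fun i => by
    refine tendsto_iff_norm_sub_tendsto_zero.2 (squeeze_zero (fun _ => norm_nonneg _)
      (fun n => (norm_sub_rev _ _).trans_le (hχ n i)) ?_)
    simpa using tendsto_one_div_add_atTop_nhds_zero_nat.const_mul (C i)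
  by_cases h0 : ∀ i, η i = 0
  · exact ⟨0, fun i => tendsto_nhds_unique (h1 i) (by simp [h0 i])⟩
  push Not at h0
  obtain ⟨i, hi⟩ := h0
  have h2 : ⟪η i, η i⟫_ℂ ≠ 0 := inner_self_ne_zero.2 hi
  have h3 : Tendsto χ atTop (𝓝 (⟪η i, v i⟫_ℂ / ⟪η i, η i⟫_ℂ)) :=
    ((tendsto_const_nhds.inner (h1 i)).div_const ⟪η i, η i⟫_ℂ).congr fun n => by
      rw [inner_smul_right, mul_div_cancel_right₀ _ h2]
  exact ⟨_, fun j => tendsto_nhds_unique (h1 j) (h3.smul_const _)⟩

/-- a multiplicative function on the line which is bounded below and continuous at zero -/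
theorem char' {κ : ℝ → ℂ} (hm : ∀ s t, κ (s + t) = κ s * κ t) {r : ℝ} (hr : 0 < r)
    (hb : ∀ t, r ≤ ‖κ t‖) {v w : ℝ → K} (hv : Continuous v) (hw : Continuous w) (h0 : w 0 ≠ 0)
    (e : ∀ t, v t = κ t • w t) : ∃ c : ℝ, ∀ t : ℝ, κ t = Complex.exp (t * c * Complex.I) := by
  have n0 : ∀ t, κ t ≠ 0 := fun t h => by simpa [h, hr.not_ge] using hb t
  have k0 : κ 0 = 1 := by
    have := hm 0 0
    rw [add_zero] at this
    exact (mul_eq_left₀ (n0 0)).1 this.symm
  have ge : ∀ t, 1 ≤ ‖κ t‖ := fun t => by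
    by_contra h
    have h1 : ∀ n : ℕ, ‖κ (n * t)‖ = ‖κ t‖ ^ n := fun n => by
      induction n with
      | zero => simp [k0]
      | succ n ih => rw [Nat.cast_succ, add_mul, one_mul, hm, norm_mul, ih, pow_succ]
    obtain ⟨n, hn⟩ := exists_pow_lt_of_lt_one hr (not_le.1 h)
    exact (hb (n * t)).not_gt (h1 n ▸ hn)
  have c0 : ContinuousAt κ 0 := by
    have h1 : ⟪w 0, w 0⟫_ℂ ≠ 0 := inner_self_ne_zero.2 h0
    have h2 : ContinuousAt (fun t => ⟪w 0, w t⟫_ℂ) 0 := by fun_prop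
    have h3 : ContinuousAt (fun t => ⟪w 0, v t⟫_ℂ / ⟪w 0, w t⟫_ℂ) 0 :=
      ContinuousAt.div (by fun_prop) h2 h1
    refine h3.congr ((h2.eventually_ne h1).mono fun t ht => ?_)
    dsimp only
    rw [e, inner_smul_right, mul_div_cancel_right₀ _ ht]
  refine char (continuous_iff_continuousAt.2 fun t => ?_) hm fun t => le_antisymm ?_ (ge t)
  · have h1 : ContinuousAt (fun s => κ (s - t) * κ t) t :=
      (ContinuousAt.comp_of_eq (f := fun s => s - t) c0 (by fun_prop) (sub_self t)).mul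
        continuousAt_const
    exact h1.congr (Eventually.of_forall fun s => by dsimp only; rw [← hm, sub_add_cancel])
  · have h1 : ‖κ t‖ * ‖κ (-t)‖ = 1 := by rw [← norm_mul, ← hm, add_neg_cancel, k0, norm_one]
    nlinarith [ge t, ge (-t)]

end Vale.Agent.P092EG
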